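import Vale.Agent.P042.Tower
import Mathlib.Tactic.NormNum.Prime

/-!
Certificates for the square-difference-free construction: tables are lists of
(residue, rank), and masks encode the squares modulo the block modulus.
-/

set_option maxRecDepth 40000
set_option exponentiation.threshold 256

namespace Vale.Agent.P042

def B16_tab : List (ℕ × ℕ) :=
  [(0, 5), (2, 0), (3, 3), (5, 0), (6, 1), (7, 4), (8, 5), (10, 2), (11, 5), (13, 0)]

def B16_cls : ℕ → Bool := fun r => decide (r ∈ ([0, 5] : List ℕ))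

theorem B16_blk : Block (4 ^ 2) 6 B16_cls 6 4 :=
  block_table 16 531 6 B16_cls 6 4 B16_tab (by decide +kernel) (by decide +kernel) (by decide +kernel)

theorem B16_tower : Ranked ((4 ^ 2) ^ 3753)
    (Nat.descFactorial 3753 2391 / Nat.factorial 2391 * (6 ^ 2391 * 4 ^ 1362))
    (Nat.descFactorial 3753 2391 / Nat.factorial 2391 * (2 ^ 2391 * 4 ^ 1362)) := by
  have h := ranked_tower (hA := 2) (hB := 4) (by norm_num) B16_blk (by decide +kernel)
    (by decide +kernel) 3753 2391
  rwa [Nat.choose_eq_descFactorial_div_factorial] at h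

def B5_43_tab : List (ℕ × ℕ) :=
  [(5, 3), (10, 0), (12, 0), (16, 10), (19, 9), (21, 7), (45, 8), (74, 1), (84, 4), (110, 2),
   (123, 3), (133, 5), (136, 1), (147, 9), (152, 2), (158, 10), (177, 6)]

def B5_43_cls : ℕ → Bool := fun r => decide (r ∈ ([0, 1, 2, 3, 9, 10] : List ℕ))

theorem B5_43_blk : Block (215 ^ 2) 11 B5_43_cls (215 * 12) (215 * 5) :=
  block_lift 215 1645656142683232726506244768959749043048668061902681850677153363 11 B5_43_cls 12 5 B5_43_tab ((Nat.squarefree_mul (by decide : Nat.Coprime 5 43)).2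
    ⟨(by norm_num : Nat.Prime 5).squarefree, (by norm_num : Nat.Prime 43).squarefree⟩ : Squarefree (5 * 43)) (by decide +kernel)
    (by decide +kernel) (by decide +kernel)

theorem B5_43_tower : Ranked ((215 ^ 2) ^ 2565)
    (Nat.descFactorial 2565 1824 / Nat.factorial 1824 * ((215 * 12) ^ 1824 * (215 * 5) ^ 741))
    (Nat.descFactorial 2565 1824 / Nat.factorial 1824 * (6 ^ 1824 * 5 ^ 741)) := by
  have h := ranked_tower (hA := 6) (hB := 5) (by norm_num) B5_43_blk (by decide +kernel)
    (by decide +kernel) 2565 1824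
  rwa [Nat.choose_eq_descFactorial_div_factorial] at h

def B13_23_tab : List (ℕ × ℕ) :=
  [(18, 1), (21, 2), (45, 3), (46, 6), (47, 7), (52, 8), (54, 4), (73, 8), (81, 11), (119, 2),
   (166, 5), (191, 9), (192, 11), (194, 10), (209, 0), (224, 5), (234, 4), (245, 1), (264, 3)]

def B13_23_cls : ℕ → Bool := fun r => decide (r ∈ ([1, 2, 3, 4, 5, 8, 11] : List ℕ))

theorem B13_23_blk : Block (299 ^ 2) 12 B13_23_cls (299 * 14) (299 * 5) :=
  block_lift 299 1064947756905426738554942803579829722398663171338677554556261779639948659802089451500059 12 B13_23_cls 14 5 B13_23_tab ((Nat.squarefree_mul (by decide : Nat.Coprime 13 23)).2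
    ⟨(by norm_num : Nat.Prime 13).squarefree, (by norm_num : Nat.Prime 23).squarefree⟩ : Squarefree (13 * 23)) (by decide +kernel)
    (by decide +kernel) (by decide +kernel)

theorem B13_23_tower : Ranked ((299 ^ 2) ^ 2466)
    (Nat.descFactorial 2466 1819 / Nat.factorial 1819 * ((299 * 14) ^ 1819 * (299 * 5) ^ 647))
    (Nat.descFactorial 2466 1819 / Nat.factorial 1819 * (7 ^ 1819 * 5 ^ 647)) := by
  have h := ranked_tower (hA := 7) (hB := 5) (by norm_num) B13_23_blk (by decide +kernel)
    (by decide +kernel) 2466 1819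
  rwa [Nat.choose_eq_descFactorial_div_factorial] at h

def B3_tab : List (ℕ × ℕ) :=
  [(0, 0), (1, 1)]

def B3_cls : ℕ → Bool := fun _ => true

theorem B3_blk : Block (3 ^ 2) 2 B3_cls (3 * 2) (3 * 0) :=
  block_lift 3 3 2 B3_cls 2 0 B3_tab ((by norm_num : Nat.Prime 3).squarefree) (by decide +kernel)
    (by decide +kernel) (by decide +kernel)

theorem B3_tower : Ranked ((3 ^ 2) ^ 8656) ((3 * 2) ^ 8656) (2 ^ 8656) := by
  have h := ranked_tower (hA := 2) (hB := 0) (by norm_num) B3_blk (by decide +kernel)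
    (by decide +kernel) 8656 8656
  simpa only [Nat.choose_self, Nat.sub_self, pow_zero, one_mul, mul_one] using h

def B7_tab : List (ℕ × ℕ) :=
  [(0, 0), (1, 1), (2, 2)]

def B7_cls : ℕ → Bool := fun _ => true

theorem B7_blk : Block (7 ^ 2) 3 B7_cls (7 * 3) (7 * 0) :=
  block_lift 7 23 3 B7_cls 3 0 B7_tab ((by norm_num : Nat.Prime 7).squarefree) (by decide +kernel)
    (by decide +kernel) (by decide +kernel)

theorem B7_tower : Ranked ((7 ^ 2) ^ 5461) ((7 * 3) ^ 5461) (3 ^ 5461) := by
  have h := ranked_tower (hA := 3) (hB := 0) (by norm_num) B7_blk (by decide +kernel)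
    (by decide +kernel) 5461 5461
  simpa only [Nat.choose_self, Nat.sub_self, pow_zero, one_mul, mul_one] using h

def B11_tab : List (ℕ × ℕ) :=
  [(0, 0), (1, 1), (4, 2), (5, 3)]

def B11_cls : ℕ → Bool := fun _ => true

theorem B11_blk : Block (11 ^ 2) 4 B11_cls (11 * 4) (11 * 0) :=
  block_lift 11 571 4 B11_cls 4 0 B11_tab ((by norm_num : Nat.Prime 11).squarefree) (by decide +kernel)
    (by decide +kernel) (by decide +kernel)

theorem B11_tower : Ranked ((11 ^ 2) ^ 4328) ((11 * 4) ^ 4328) (4 ^ 4328) := by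
  have h := ranked_tower (hA := 4) (hB := 0) (by norm_num) B11_blk (by decide +kernel)
    (by decide +kernel) 4328 4328
  simpa only [Nat.choose_self, Nat.sub_self, pow_zero, one_mul, mul_one] using h

def B19_tab : List (ℕ × ℕ) :=
  [(0, 0), (1, 1), (6, 2), (17, 3), (7, 4)]

def B19_cls : ℕ → Bool := fun _ => true

theorem B19_blk : Block (19 ^ 2) 5 B19_cls (19 * 5) (19 * 0) :=
  block_lift 19 199411 5 B19_cls 5 0 B19_tab ((by norm_num : Nat.Prime 19).squarefree) (by decide +kernel)
    (by decide +kernel) (by decide +kernel)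

theorem B19_tower : Ranked ((19 ^ 2) ^ 3727) ((19 * 5) ^ 3727) (5 ^ 3727) := by
  have h := ranked_tower (hA := 5) (hB := 0) (by norm_num) B19_blk (by decide +kernel)
    (by decide +kernel) 3727 3727
  simpa only [Nat.choose_self, Nat.sub_self, pow_zero, one_mul, mul_one] using h

def B31_tab : List (ℕ × ℕ) :=
  [(0, 0), (1, 1), (8, 2), (5, 3), (2, 4), (9, 5), (10, 6)]

def B31_cls : ℕ → Bool := fun _ => true

theorem B31_blk : Block (31 ^ 2) 7 B31_cls (31 * 7) (31 * 0) :=
  block_lift 31 303908791 7 B31_cls 7 0 B31_tab ((by norm_num : Nat.Prime 31).squarefree) (by decide +kernel)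
    (by decide +kernel) (by decide +kernel)

theorem B31_tower : Ranked ((31 ^ 2) ^ 3083) ((31 * 7) ^ 3083) (7 ^ 3083) := by
  have h := ranked_tower (hA := 7) (hB := 0) (by norm_num) B31_blk (by decide +kernel)
    (by decide +kernel) 3083 3083
  simpa only [Nat.choose_self, Nat.sub_self, pow_zero, one_mul, mul_one] using h

def B59_tab : List (ℕ × ℕ) :=
  [(0, 0), (1, 1), (20, 2), (29, 3), (27, 4), (21, 5), (46, 6), (49, 7), (36, 8)]

def B59_cls : ℕ → Bool := fun _ => true

theorem B59_blk : Block (59 ^ 2) 9 B59_cls (59 * 9) (59 * 0) :=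
  block_lift 59 156326468341437115 9 B59_cls 9 0 B59_tab ((by norm_num : Nat.Prime 59).squarefree) (by decide +kernel)
    (by decide +kernel) (by decide +kernel)

theorem B59_tower : Ranked ((59 ^ 2) ^ 2730) ((59 * 9) ^ 2730) (9 ^ 2730) := by
  have h := ranked_tower (hA := 9) (hB := 0) (by norm_num) B59_blk (by decide +kernel)
    (by decide +kernel) 2730 2730
  simpa only [Nat.choose_self, Nat.sub_self, pow_zero, one_mul, mul_one] using h

def B71_tab : List (ℕ × ℕ) :=
  [(0, 0), (1, 1), (37, 2), (20, 3), (6, 4), (30, 5), (9, 6), (49, 7), (38, 8)]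

def B71_cls : ℕ → Bool := fun _ => true

theorem B71_blk : Block (71 ^ 2) 9 B71_cls (71 * 9) (71 * 0) :=
  block_lift 71 20052041432995567487 9 B71_cls 9 0 B71_tab ((by norm_num : Nat.Prime 71).squarefree) (by decide +kernel)
    (by decide +kernel) (by decide +kernel)

theorem B71_tower : Ranked ((71 ^ 2) ^ 2729) ((71 * 9) ^ 2729) (9 ^ 2729) := by
  have h := ranked_tower (hA := 9) (hB := 0) (by norm_num) B71_blk (by decide +kernel)
    (by decide +kernel) 2729 2729
  simpa only [Nat.choose_self, Nat.sub_self, pow_zero, one_mul, mul_one] using h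

def B103_tab : List (ℕ × ℕ) :=
  [(0, 0), (1, 1), (29, 2), (92, 3), (2, 4), (61, 5), (17, 6), (30, 7), (93, 8), (18, 9),
   (19, 10)]

def B103_cls : ℕ → Bool := fun _ => true

theorem B103_blk : Block (103 ^ 2) 11 B103_cls (103 * 11) (103 * 0) :=
  block_lift 103 1760368345969468176824550810519 11 B103_cls 11 0 B103_tab ((by norm_num : Nat.Prime 103).squarefree) (by decide +kernel)
    (by decide +kernel) (by decide +kernel)

theorem B103_tower : Ranked ((103 ^ 2) ^ 2501) ((103 * 11) ^ 2501) (11 ^ 2501) := by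
  have h := ranked_tower (hA := 11) (hB := 0) (by norm_num) B103_blk (by decide +kernel)
    (by decide +kernel) 2501 2501
  simpa only [Nat.choose_self, Nat.sub_self, pow_zero, one_mul, mul_one] using h

/-- Square root of the base. -/
def root : ℕ :=
    (((((((((((4 ^ 3753) *
    (215 ^ 2565)) *
    (299 ^ 2466)) *
    (3 ^ 8656)) *
    (7 ^ 5461)) *
    (11 ^ 4328)) *
    (19 ^ 3727)) *
    (31 ^ 3083)) *
    (59 ^ 2730)) *
    (71 ^ 2729)) *
    (103 ^ 2501))

/-- Number of digits before choosing a rank level. -/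
def total : ℕ :=
    (((((((((((Nat.descFactorial 3753 2391 / Nat.factorial 2391 * (6 ^ 2391 * 4 ^ 1362)) *
    (Nat.descFactorial 2565 1824 / Nat.factorial 1824 * ((215 * 12) ^ 1824 * (215 * 5) ^ 741))) *
    (Nat.descFactorial 2466 1819 / Nat.factorial 1819 * ((299 * 14) ^ 1819 * (299 * 5) ^ 647))) *
    ((3 * 2) ^ 8656)) *
    ((7 * 3) ^ 5461)) *
    ((11 * 4) ^ 4328)) *
    ((19 * 5) ^ 3727)) *
    ((31 * 7) ^ 3083)) *
    ((59 * 9) ^ 2730)) *
    ((71 * 9) ^ 2729)) *
    ((103 * 11) ^ 2501))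

/-- Number of rank levels. -/
def height : ℕ :=
    (((((((((((Nat.descFactorial 3753 2391 / Nat.factorial 2391 * (2 ^ 2391 * 4 ^ 1362)) +
    (Nat.descFactorial 2565 1824 / Nat.factorial 1824 * (6 ^ 1824 * 5 ^ 741))) +
    (Nat.descFactorial 2466 1819 / Nat.factorial 1819 * (7 ^ 1819 * 5 ^ 647))) +
    (2 ^ 8656)) +
    (3 ^ 5461)) +
    (4 ^ 4328)) +
    (5 ^ 3727)) +
    (7 ^ 3083)) +
    (9 ^ 2730)) +
    (9 ^ 2729)) +
    (11 ^ 2501))

theorem ranked_all : Ranked (root ^ 2) total height := by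
  have h := (ranked_mul (by decide +kernel)
    (ranked_mul (by decide +kernel)
    (ranked_mul (by decide +kernel)
    (ranked_mul (by decide +kernel)
    (ranked_mul (by decide +kernel)
    (ranked_mul (by decide +kernel)
    (ranked_mul (by decide +kernel)
    (ranked_mul (by decide +kernel)
    (ranked_mul (by decide +kernel)
    (ranked_mul (by decide +kernel)
    B16_tower B5_43_tower) B13_23_tower) B3_tower) B7_tower) B11_tower) B19_tower) B31_tower) B59_tower) B71_tower) B103_tower)
  have e : root ^ 2 =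
    ((((((((((((4 ^ 2) ^ 3753) *
    ((215 ^ 2) ^ 2565)) *
    ((299 ^ 2) ^ 2466)) *
    ((3 ^ 2) ^ 8656)) *
    ((7 ^ 2) ^ 5461)) *
    ((11 ^ 2) ^ 4328)) *
    ((19 ^ 2) ^ 3727)) *
    ((31 ^ 2) ^ 3083)) *
    ((59 ^ 2) ^ 2730)) *
    ((71 ^ 2) ^ 2729)) *
    ((103 ^ 2) ^ 2501)) := by decide +kernel
  rw [e]
  exact h

theorem slack : 2 ^ 9753 * (root ^ 2 * height) ^ 3 ≤ total ^ 4 := by decide +kernel

theorem small_base : (root ^ 2 * height) ^ 69 ≤ (2 ^ 9753) ^ 2500 := by decide +kernel

theorem root_height : 1 < root ∧ 0 < height := by decide +kernel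

end Vale.Agent.P042
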