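import Mathlib.Data.Nat.ModEq
import Mathlib.Data.Nat.ChineseRemainder
import Mathlib.Data.Nat.Squarefree
import Mathlib.Algebra.BigOperators.Ring.Finset
import Mathlib.Data.Nat.Choose.Basic
import Mathlib.Data.Finset.Card
import Mathlib.Analysis.SpecialFunctions.Pow.Real
import Mathlib.Data.Nat.Log

namespace Vale.Agent.P042

/-- A digit set modulo `K` with at least `N` elements and a rank below `H` that increases
strictly along square differences. -/
def Ranked (K N H : ℕ) : Prop :=
  ∃ (S : Finset ℕ) (rk : ℕ → ℕ), (∀ s ∈ S, s < K) ∧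
    (∀ x ∈ S, ∀ y ∈ S, ∀ z : ℕ, x ≠ y → x ≡ y + z ^ 2 [MOD K] → rk y < rk x) ∧
    (∀ s ∈ S, rk s < H) ∧ N ≤ S.card

/-- A base block: ranks below `h`, split by `cls` in two classes of prescribed sizes. -/
def Block (K h : ℕ) (cls : ℕ → Bool) (nA nB : ℕ) : Prop :=
  ∃ (S : Finset ℕ) (rk : ℕ → ℕ), (∀ s ∈ S, s < K) ∧
    (∀ x ∈ S, ∀ y ∈ S, ∀ z : ℕ, x ≠ y → x ≡ y + z ^ 2 [MOD K] → rk y < rk x) ∧
    (∀ s ∈ S, rk s < h) ∧ (S.filter (fun s => cls (rk s) = true)).card = nA ∧
    (S.filter (fun s => cls (rk s) = false)).card = nB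

/-- Boolean check that a table of (residue, rank) is increasing along steps whose
residue is listed in the bit mask. -/
def checkTable (n mask : ℕ) (T : List (ℕ × ℕ)) : Bool :=
  T.all (fun a => decide (a.1 < n)) &&
  T.all (fun a => T.all (fun b =>
    decide (a.1 = b.1) || decide (b.2 < a.2) || !mask.testBit ((a.1 + n - b.1) % n)))

def squaresIn (n mask : ℕ) : Bool :=
  (List.range n).all (fun z => mask.testBit (z ^ 2 % n))

def rankOf (T : List (ℕ × ℕ)) (x : ℕ) : ℕ :=
  ((T.find? (fun a => decide (a.1 = x))).map Prod.snd).getD 0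

theorem rankOf_mem {T : List (ℕ × ℕ)} {x : ℕ} (hx : x ∈ T.map Prod.fst) :
    ∃ a ∈ T, a.1 = x ∧ rankOf T x = a.2 := by
  obtain ⟨b, hb, rfl⟩ := List.mem_map.1 hx
  rcases h : T.find? (fun a => decide (a.1 = b.1)) with _ | a
  · have := List.find?_eq_none.1 h b hb
    simp at this
  · refine ⟨a, List.mem_of_find?_eq_some h, ?_, by simp [rankOf, h]⟩
    simpa using List.find?_some h

theorem table_spec {n mask : ℕ} {T : List (ℕ × ℕ)} (hc : checkTable n mask T = true)
    (hm : squaresIn n mask = true) :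
    (∀ x ∈ T.map Prod.fst, x < n) ∧
    ∀ x ∈ T.map Prod.fst, ∀ y ∈ T.map Prod.fst, ∀ z : ℕ, x ≠ y →
      x ≡ y + z ^ 2 [MOD n] → rankOf T y < rankOf T x := by
  simp only [checkTable, Bool.and_eq_true, List.all_eq_true, decide_eq_true_eq,
    Bool.or_eq_true, Bool.not_eq_true'] at hc
  simp only [squaresIn, List.all_eq_true, List.mem_range] at hm
  refine ⟨fun x hx => ?_, fun x hx y hy z hne hz => ?_⟩
  · obtain ⟨a, ha, rfl⟩ := List.mem_map.1 hx
    exact hc.1 a ha
  · obtain ⟨a, ha, rfl, hra⟩ := rankOf_mem hx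
    obtain ⟨b, hb, rfl, hrb⟩ := rankOf_mem hy
    have han := hc.1 a ha
    have hbn := hc.1 b hb
    rcases hc.2 a ha b hb with (h | h) | h
    · exact absurd h hne
    · rw [hra, hrb]; exact h
    · exfalso
      have hn : 0 < n := by omega
      have h1 := hm (z % n) (Nat.mod_lt z hn)
      have h2 : (a.1 + n - b.1) % n = (z % n) ^ 2 % n := by
        rw [← Nat.pow_mod]
        have e : (a.1 + n - b.1) + b.1 ≡ z ^ 2 + b.1 [MOD n] := by
          rw [Nat.sub_add_cancel (by omega)]
          refine Nat.ModEq.trans ?_ (hz.trans (by rw [add_comm]))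
          exact Nat.add_modEq_right
        exact Nat.ModEq.add_right_cancel' _ e
      rw [h2, h1] at h
      exact absurd h (by simp)

/-- Check of the height and the two class sizes of a table. -/
def checkBlock (T : List (ℕ × ℕ)) (h : ℕ) (cls : ℕ → Bool) (nA nB : ℕ) : Bool :=
  decide (T.map Prod.fst).Nodup &&
  (T.map Prod.fst).all (fun x => decide (rankOf T x < h)) &&
  decide (((T.map Prod.fst).filter (fun x => cls (rankOf T x))).length = nA) &&
  decide (((T.map Prod.fst).filter (fun x => !cls (rankOf T x))).length = nB)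

theorem checkBlock_spec {T : List (ℕ × ℕ)} {h : ℕ} {cls : ℕ → Bool} {nA nB : ℕ}
    (hb : checkBlock T h cls nA nB = true) :
    (∀ x ∈ (T.map Prod.fst).toFinset, rankOf T x < h) ∧
    ((T.map Prod.fst).toFinset.filter (fun x => cls (rankOf T x) = true)).card = nA ∧
    ((T.map Prod.fst).toFinset.filter (fun x => cls (rankOf T x) = false)).card = nB := by
  simp only [checkBlock, Bool.and_eq_true, List.all_eq_true, decide_eq_true_eq] at hb
  obtain ⟨⟨⟨hnd, hh⟩, hA⟩, hB⟩ := hb
  refine ⟨fun x hx => hh x (List.mem_toFinset.1 hx), ?_, ?_⟩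
  · rw [← hA, ← List.toFinset_card_of_nodup (hnd.filter _)]
    congr 1; ext x; simp
  · rw [← hB, ← List.toFinset_card_of_nodup (hnd.filter _)]
    congr 1; ext x; simp

/-- A table used directly modulo `n`. -/
theorem block_table (n mask h : ℕ) (cls : ℕ → Bool) (nA nB : ℕ) (T : List (ℕ × ℕ))
    (hc : checkTable n mask T = true) (hm : squaresIn n mask = true)
    (hb : checkBlock T h cls nA nB = true) : Block n h cls nA nB := by
  obtain ⟨h1, h2⟩ := table_spec hc hm
  obtain ⟨h3, h4, h5⟩ := checkBlock_spec hb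
  exact ⟨_, rankOf T, fun s hs => h1 s (List.mem_toFinset.1 hs),
    fun x hx y hy => h2 x (List.mem_toFinset.1 hx) y (List.mem_toFinset.1 hy), h3, h4, h5⟩

/-- Ruzsa's trick: for squarefree `n` the second digit modulo `n ^ 2` is free. -/
theorem block_lift (n mask h : ℕ) (cls : ℕ → Bool) (nA nB : ℕ) (T : List (ℕ × ℕ))
    (hn : Squarefree n) (hc : checkTable n mask T = true) (hm : squaresIn n mask = true)
    (hb : checkBlock T h cls nA nB = true) : Block (n ^ 2) h cls (n * nA) (n * nB) := by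
  obtain ⟨h1, h2⟩ := table_spec hc hm
  obtain ⟨h3, h4, h5⟩ := checkBlock_spec hb
  have hn0 : 0 < n := Nat.pos_of_ne_zero hn.ne_zero
  classical
  refine ⟨((T.map Prod.fst).toFinset ×ˢ Finset.range n).image (fun p => p.1 + n * p.2),
    fun s => rankOf T (s % n), ?_, ?_, ?_, ?_, ?_⟩
  · intro s hs
    obtain ⟨⟨t, j⟩, hp, rfl⟩ := Finset.mem_image.1 hs
    obtain ⟨ht, hj⟩ := Finset.mem_product.1 hp
    have ht' := h1 t (List.mem_toFinset.1 ht)
    have hj' := Finset.mem_range.1 hj
    show t + n * j < n ^ 2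
    nlinarith
  · intro x hx y hy z hne hz
    obtain ⟨⟨t, j⟩, hp, rfl⟩ := Finset.mem_image.1 hx
    obtain ⟨⟨u, k⟩, hq, rfl⟩ := Finset.mem_image.1 hy
    obtain ⟨ht, hj⟩ := Finset.mem_product.1 hp
    obtain ⟨hu, hk⟩ := Finset.mem_product.1 hq
    have ht' := h1 t (List.mem_toFinset.1 ht)
    have hu' := h1 u (List.mem_toFinset.1 hu)
    have et : (t + n * j) % n = t := by
      rw [Nat.add_mul_mod_self_left, Nat.mod_eq_of_lt ht']
    have eu : (u + n * k) % n = u := by
      rw [Nat.add_mul_mod_self_left, Nat.mod_eq_of_lt hu']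
    simp only [et, eu]
    have hzn : t ≡ u + z ^ 2 [MOD n] := by
      have h := Nat.ModEq.of_dvd (Dvd.intro n (by ring : n * n = n ^ 2)) hz
      unfold Nat.ModEq at h ⊢
      rw [Nat.add_mul_mod_self_left, Nat.add_right_comm, Nat.add_mul_mod_self_left] at h
      exact h
    by_cases htu : t = u
    · exfalso
      subst htu
      have h0 : 0 ≡ z ^ 2 [MOD n] := Nat.ModEq.add_left_cancel' t (by simpa using hzn)
      have hdz : n ∣ z ^ 2 := (Nat.modEq_zero_iff_dvd).1 h0.symm
      have hdn : n ∣ z := (Squarefree.dvd_pow_iff_dvd hn (by norm_num)).1 hdz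
      have hz2 : z ^ 2 ≡ 0 [MOD n ^ 2] :=
        (Nat.modEq_zero_iff_dvd).2 (pow_dvd_pow_of_dvd hdn 2)
      have h3 : t + n * j ≡ t + n * k [MOD n ^ 2] :=
        hz.trans (by simpa using (Nat.ModEq.add_left (t + n * k) hz2))
      have hj' := Finset.mem_range.1 hj
      have hk' := Finset.mem_range.1 hk
      exact hne (Nat.ModEq.eq_of_lt_of_lt h3 (by nlinarith) (by nlinarith))
    · exact h2 t (List.mem_toFinset.1 ht) u (List.mem_toFinset.1 hu) z htu hzn
  · intro s hs
    obtain ⟨⟨t, j⟩, hp, rfl⟩ := Finset.mem_image.1 hs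
    have ht := (Finset.mem_product.1 hp).1
    have ht' := h1 t (List.mem_toFinset.1 ht)
    simpa [Nat.add_mul_mod_self_left, Nat.mod_eq_of_lt ht'] using h3 t ht
  all_goals
    rw [Finset.filter_image, Finset.card_image_of_injOn]
    · have e : ∀ v : Bool,
          ((T.map Prod.fst).toFinset ×ˢ Finset.range n).filter
            (fun p => cls (rankOf T ((p.1 + n * p.2) % n)) = v) =
          ((T.map Prod.fst).toFinset.filter (fun t => cls (rankOf T t) = v)) ×ˢ
            Finset.range n := by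
        intro v
        ext ⟨t, j⟩
        simp only [Finset.mem_filter, Finset.mem_product]
        constructor
        · rintro ⟨⟨ht, hj⟩, hv⟩
          rw [Nat.add_mul_mod_self_left, Nat.mod_eq_of_lt (h1 t (List.mem_toFinset.1 ht))] at hv
          exact ⟨⟨ht, hv⟩, hj⟩
        · rintro ⟨⟨ht, hv⟩, hj⟩
          refine ⟨⟨ht, hj⟩, ?_⟩
          rw [Nat.add_mul_mod_self_left, Nat.mod_eq_of_lt (h1 t (List.mem_toFinset.1 ht))]
          exact hv
      rw [e, Finset.card_product, Finset.card_range]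
      first
        | rw [h4, mul_comm]
        | rw [h5, mul_comm]
    · rintro ⟨t, j⟩ hp ⟨u, k⟩ hq hh
      have hp' := Finset.mem_product.1 (Finset.mem_filter.1 hp).1
      have hq' := Finset.mem_product.1 (Finset.mem_filter.1 hq).1
      have ht' := h1 t (List.mem_toFinset.1 hp'.1)
      have hu' := h1 u (List.mem_toFinset.1 hq'.1)
      have e1 : t = u := by
        have := congrArg (fun v => v % n) hh
        simpa [Nat.add_mul_mod_self_left, Nat.mod_eq_of_lt ht', Nat.mod_eq_of_lt hu'] using this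
      subst e1
      have e3 : j = k := Nat.eq_of_mul_eq_mul_left hn0 (Nat.add_left_cancel hh)
      rw [e3]

/-- Coprime moduli combine: sizes multiply and heights add. -/
theorem ranked_mul {K L N M H G : ℕ} (hKL : Nat.Coprime K L)
    (hF : Ranked K N H) (hG : Ranked L M G) : Ranked (K * L) (N * M) (H + G) := by
  classical
  obtain ⟨S, rs, hS, hSp, hSh, hSN⟩ := hF
  obtain ⟨T, rt, hT, hTp, hTh, hTM⟩ := hG
  let φ : ℕ × ℕ → ℕ := fun p => (Nat.chineseRemainder hKL p.1 p.2 : ℕ)
  have hφK : ∀ p ∈ S ×ˢ T, φ p % K = p.1 := by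
    intro p hp
    have h := (Nat.chineseRemainder hKL p.1 p.2).2.1
    exact Eq.trans h (Nat.mod_eq_of_lt (hS _ (Finset.mem_product.1 hp).1))
  have hφL : ∀ p ∈ S ×ˢ T, φ p % L = p.2 := by
    intro p hp
    have h := (Nat.chineseRemainder hKL p.1 p.2).2.2
    exact Eq.trans h (Nat.mod_eq_of_lt (hT _ (Finset.mem_product.1 hp).2))
  refine ⟨(S ×ˢ T).image φ, fun s => rs (s % K) + rt (s % L), ?_, ?_, ?_, ?_⟩
  · intro s hs
    obtain ⟨p, hp, rfl⟩ := Finset.mem_image.1 hs
    obtain ⟨h1, h2⟩ := Finset.mem_product.1 hp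
    have hK : K ≠ 0 := by have := hS _ h1; omega
    have hL : L ≠ 0 := by have := hT _ h2; omega
    exact Nat.chineseRemainder_lt_mul hKL _ _ hK hL
  · intro x hx y hy z hne hz
    obtain ⟨p, hp, rfl⟩ := Finset.mem_image.1 hx
    obtain ⟨q, hq, rfl⟩ := Finset.mem_image.1 hy
    simp only [hφK p hp, hφK q hq, hφL p hp, hφL q hq]
    obtain ⟨hp1, hp2⟩ := Finset.mem_product.1 hp
    obtain ⟨hq1, hq2⟩ := Finset.mem_product.1 hq
    have ha : p.1 ≡ q.1 + z ^ 2 [MOD K] := by
      have h := Nat.ModEq.of_dvd (dvd_mul_right K L) hz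
      have e1 : φ p ≡ p.1 [MOD K] := (Nat.chineseRemainder hKL p.1 p.2).2.1
      have e2 : φ q ≡ q.1 [MOD K] := (Nat.chineseRemainder hKL q.1 q.2).2.1
      exact (e1.symm.trans h).trans (e2.add_right _)
    have hb : p.2 ≡ q.2 + z ^ 2 [MOD L] := by
      have h := Nat.ModEq.of_dvd (dvd_mul_left L K) hz
      have e1 : φ p ≡ p.2 [MOD L] := (Nat.chineseRemainder hKL p.1 p.2).2.2
      have e2 : φ q ≡ q.2 [MOD L] := (Nat.chineseRemainder hKL q.1 q.2).2.2
      exact (e1.symm.trans h).trans (e2.add_right _)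
    by_cases h1 : p.1 = q.1
    · by_cases h2 : p.2 = q.2
      · exact absurd (congrArg φ (Prod.ext h1 h2)) hne
      · have := hTp _ hp2 _ hq2 z h2 hb
        rw [h1]; omega
    · by_cases h2 : p.2 = q.2
      · have := hSp _ hp1 _ hq1 z h1 ha
        rw [h2]; omega
      · have := hSp _ hp1 _ hq1 z h1 ha
        have := hTp _ hp2 _ hq2 z h2 hb
        omega
  · intro s hs
    obtain ⟨p, hp, rfl⟩ := Finset.mem_image.1 hs
    simp only [hφK p hp, hφL p hp]
    have := hSh _ (Finset.mem_product.1 hp).1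
    have := hTh _ (Finset.mem_product.1 hp).2
    omega
  · rw [Finset.card_image_of_injOn, Finset.card_product]
    · exact Nat.mul_le_mul hSN hTM
    · intro p hp q hq h
      refine Prod.ext ?_ ?_
      · rw [← hφK p hp, ← hφK q hq, h]
      · rw [← hφL p hp, ← hφL q hq, h]

/-- Lexicographic composition with a child depending on the top rank. -/
theorem ranked_lex {q h K' : ℕ} (hq : 0 < q) {S : Finset ℕ} {rk : ℕ → ℕ}
    (hS : ∀ s ∈ S, s < q ^ 2)
    (hp : ∀ x ∈ S, ∀ y ∈ S, ∀ z : ℕ, x ≠ y → x ≡ y + z ^ 2 [MOD q ^ 2] → rk y < rk x)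
    (hh : ∀ s ∈ S, rk s < h) (N H : ℕ → ℕ) (hchild : ∀ r, r < h → Ranked K' (N r) (H r)) :
    Ranked (q ^ 2 * K') (∑ s ∈ S, N (rk s)) (∑ r ∈ Finset.range h, H r) := by
  classical
  choose! C ck hC hCp hCh hCN using hchild
  have hM : 0 < q ^ 2 := pow_pos hq 2
  let off : ℕ → ℕ := fun r => ∑ i ∈ Finset.range r, H i
  have hoff : ∀ r r', r < r' → off r + H r ≤ off r' := by
    intro r r' hr
    calc off r + H r = off (r + 1) := (Finset.sum_range_succ _ _).symm
      _ ≤ off r' := Finset.sum_le_sum_of_subset (Finset.range_mono hr)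
  have hmod : ∀ s ∈ S, ∀ t, (s + q ^ 2 * t) % q ^ 2 = s ∧ (s + q ^ 2 * t) / q ^ 2 = t := by
    intro s hs t
    constructor
    · rw [Nat.add_mul_mod_self_left, Nat.mod_eq_of_lt (hS s hs)]
    · rw [Nat.add_mul_div_left _ _ hM, Nat.div_eq_of_lt (hS s hs), zero_add]
  refine ⟨(S.sigma (fun s => C (rk s))).image (fun p => p.1 + q ^ 2 * p.2),
    fun v => off (rk (v % q ^ 2)) + ck (rk (v % q ^ 2)) (v / q ^ 2), ?_, ?_, ?_, ?_⟩
  · intro v hv
    obtain ⟨⟨s, t⟩, hst, rfl⟩ := Finset.mem_image.1 hv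
    obtain ⟨hs, ht⟩ := Finset.mem_sigma.1 hst
    have h1 := hS s hs
    have h2 := hC _ (hh s hs) t ht
    calc s + q ^ 2 * t < q ^ 2 + q ^ 2 * t := by omega
      _ = q ^ 2 * (t + 1) := by ring
      _ ≤ q ^ 2 * K' := Nat.mul_le_mul_left _ h2
  · intro x hx y hy z hne hz
    obtain ⟨⟨s, t⟩, hst, rfl⟩ := Finset.mem_image.1 hx
    obtain ⟨⟨u, w⟩, huw, rfl⟩ := Finset.mem_image.1 hy
    obtain ⟨hs, ht⟩ := Finset.mem_sigma.1 hst
    obtain ⟨hu, hw⟩ := Finset.mem_sigma.1 huw
    dsimp only at hz hne ht hw ⊢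
    simp only [(hmod s hs t).1, (hmod s hs t).2, (hmod u hu w).1, (hmod u hu w).2]
    have hz1 : s ≡ u + z ^ 2 [MOD q ^ 2] := by
      have h1 := Nat.ModEq.of_dvd (dvd_mul_right (q ^ 2) K') hz
      unfold Nat.ModEq at h1 ⊢
      rw [Nat.add_mul_mod_self_left, Nat.add_right_comm, Nat.add_mul_mod_self_left] at h1
      exact h1
    by_cases hsu : s = u
    · subst hsu
      have h0 : 0 ≡ z ^ 2 [MOD q ^ 2] := Nat.ModEq.add_left_cancel' s (by simpa using hz1)
      obtain ⟨m, rfl⟩ := (Nat.pow_dvd_pow_iff (by norm_num)).1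
        ((Nat.modEq_zero_iff_dvd).1 h0.symm)
      have h2 : q ^ 2 * t ≡ q ^ 2 * (w + m ^ 2) [MOD q ^ 2 * K'] := by
        apply Nat.ModEq.add_left_cancel' s
        rw [mul_add, ← add_assoc, ← mul_pow]
        exact hz
      have h3 : t ≡ w + m ^ 2 [MOD K'] := Nat.ModEq.mul_left_cancel' hM.ne' h2
      have htw : t ≠ w := fun e => hne (by rw [e])
      have := hCp _ (hh s hs) t ht w hw m htw h3
      omega
    · have h1 := hp s hs u hu z hsu hz1
      have h2 := hoff _ _ h1
      have h3 := hCh _ (hh u hu) w hw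
      omega
  · intro v hv
    obtain ⟨⟨s, t⟩, hst, rfl⟩ := Finset.mem_image.1 hv
    obtain ⟨hs, ht⟩ := Finset.mem_sigma.1 hst
    dsimp only at ht ⊢
    simp only [(hmod s hs t).1, (hmod s hs t).2]
    have h1 := hCh _ (hh s hs) t ht
    have h2 : off (rk s + 1) ≤ ∑ r ∈ Finset.range h, H r :=
      Finset.sum_le_sum_of_subset (Finset.range_mono (hh s hs))
    have h3 : off (rk s + 1) = off (rk s) + H (rk s) := Finset.sum_range_succ _ _
    omega
  · rw [Finset.card_image_of_injOn, Finset.card_sigma]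
    · exact Finset.sum_le_sum fun s hs => hCN _ (hh s hs)
    · rintro ⟨s, t⟩ hst ⟨u, w⟩ huw he
      have hs := (Finset.mem_sigma.1 hst).1
      have hu := (Finset.mem_sigma.1 huw).1
      dsimp only at he hs hu
      have e1 : s = u := by rw [← (hmod s hs t).1, ← (hmod u hu w).1, he]
      have e2 : t = w := by rw [← (hmod s hs t).2, ← (hmod u hu w).2, he]
      subst e1; subst e2; rfl

theorem tower_identity (L a x y : ℕ) :
    x * (if a = 0 then 0 else L.choose (a - 1) * (x ^ (a - 1) * y ^ (L - (a - 1)))) +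
      y * (L.choose a * (x ^ a * y ^ (L - a))) =
    (L + 1).choose a * (x ^ a * y ^ (L + 1 - a)) := by
  rcases a with _ | a
  · simp [pow_succ, mul_comm]
  · simp only [if_neg (Nat.succ_ne_zero a), Nat.add_sub_cancel, Nat.choose_succ_succ',
      Nat.add_sub_add_right]
    rw [add_mul]
    congr 1
    · ring
    · rcases Nat.lt_or_ge L (a + 1) with hl | hl
      · simp [Nat.choose_eq_zero_of_lt hl]
      · obtain ⟨d, rfl⟩ := Nat.exists_eq_add_of_le hl
        rw [show a + 1 + d - (a + 1) = d by omega, show a + 1 + d - a = d + 1 by omega]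
        ring

theorem sum_two_class (U : Finset ℕ) (c : ℕ → Bool) (g : Bool → ℕ) :
    ∑ s ∈ U, g (c s) = (U.filter (fun s => c s = true)).card * g true +
      (U.filter (fun s => c s = false)).card * g false := by
  simp only [Finset.card_eq_sum_ones, Finset.sum_mul, Finset.sum_filter]
  rw [← Finset.sum_add_distrib]
  refine Finset.sum_congr rfl fun s _ => ?_
  cases c s <;> simp

/-- Iterating a block along words with exactly `a` levels of the first class. -/
theorem ranked_tower {q h nA nB hA hB : ℕ} {cls : ℕ → Bool} (hq : 0 < q)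
    (hb : Block (q ^ 2) h cls nA nB)
    (hhA : ((Finset.range h).filter (fun r => cls r = true)).card = hA)
    (hhB : ((Finset.range h).filter (fun r => cls r = false)).card = hB) :
    ∀ L a : ℕ, Ranked ((q ^ 2) ^ L) (L.choose a * (nA ^ a * nB ^ (L - a)))
      (L.choose a * (hA ^ a * hB ^ (L - a))) := by
  classical
  obtain ⟨S, rk, hS, hp, hh, hnA, hnB⟩ := hb
  intro L
  induction L with
  | zero =>
      intro a
      rcases a with _ | a
      · exact ⟨{0}, fun _ => 0, by simp, by simp, by simp, by simp⟩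
      · exact ⟨∅, fun _ => 0, by simp, by simp, by simp, by simp⟩
  | succ L ih =>
      intro a
      let W : ℕ → ℕ → Bool → ℕ := fun x y v =>
        bif v then (if a = 0 then 0 else L.choose (a - 1) * (x ^ (a - 1) * y ^ (L - (a - 1))))
        else L.choose a * (x ^ a * y ^ (L - a))
      have hW : ∀ r, r < h → Ranked ((q ^ 2) ^ L) (W nA nB (cls r)) (W hA hB (cls r)) := by
        intro r _
        rcases hc : cls r
        · exact ih a
        · by_cases ha : a = 0
          · refine ⟨∅, fun _ => 0, by simp, by simp, by simp, ?_⟩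
            simp [W, ha]
          · simpa [W, ha] using ih (a - 1)
      have key := ranked_lex hq hS hp hh (fun r => W nA nB (cls r)) (fun r => W hA hB (cls r)) hW
      rw [sum_two_class S (fun s => cls (rk s)) (W nA nB), sum_two_class (Finset.range h) cls
        (W hA hB), hnA, hnB, hhA, hhB, ← pow_succ'] at key
      simp only [W, cond_true, cond_false] at key
      rw [tower_identity, tower_identity] at key
      exact key

/-- The digit construction in base `q ^ 2 * H`: a digit of rank `r` is placed in the interval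
number `H - 1 - r`, so that every square difference between distinct digits would be negative. -/
theorem digits {q N H : ℕ} (hq : 0 < q) (hr : Ranked (q ^ 2) N H) (k : ℕ) :
    ∃ A : Finset ℕ, (∀ a ∈ A, a < (q ^ 2 * H) ^ k) ∧ N ^ k ≤ A.card ∧
      ∀ a ∈ A, ∀ b ∈ A, ∀ n : ℕ, a = b + n ^ 2 → n = 0 := by
  classical
  obtain ⟨S, rk, hS, hp, hh, hN⟩ := hr
  induction k with
  | zero =>
      refine ⟨{0}, by simp, by simp, ?_⟩
      intro a ha b hb n h
      simp only [Finset.mem_singleton] at ha hb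
      subst ha hb
      simpa using h.symm
  | succ k ih =>
      obtain ⟨A, hA, hcard, hfreeA⟩ := ih
      have hM : 0 < q ^ 2 := pow_pos hq 2
      set L := (q ^ 2 * H) ^ k
      let pos : ℕ × ℕ → ℕ := fun p => (H - 1 - rk p.1) * L + p.2
      refine ⟨(S ×ˢ A).image (fun p => p.1 + q ^ 2 * pos p), ?_, ?_, ?_⟩
      · intro a ha
        obtain ⟨⟨s, t⟩, hp', rfl⟩ := Finset.mem_image.1 ha
        obtain ⟨hs, ht⟩ := Finset.mem_product.1 hp'
        have h1 := hS s hs
        have h2 : t < L := hA t ht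
        have h3 : pos (s, t) < H * L := by
          have h4 : H - 1 - rk s + 1 ≤ H := by have := hh s hs; omega
          calc (H - 1 - rk s) * L + t < (H - 1 - rk s + 1) * L := by rw [Nat.succ_mul]; omega
            _ ≤ H * L := Nat.mul_le_mul_right _ h4
        calc s + q ^ 2 * pos (s, t) < q ^ 2 + q ^ 2 * pos (s, t) := by omega
          _ = q ^ 2 * (pos (s, t) + 1) := by ring
          _ ≤ q ^ 2 * (H * L) := Nat.mul_le_mul_left _ h3
          _ = (q ^ 2 * H) ^ (k + 1) := by rw [pow_succ]; ring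
      · rw [Finset.card_image_of_injOn, Finset.card_product, pow_succ']
        · exact Nat.mul_le_mul hN hcard
        rintro ⟨s, t⟩ hp' ⟨u, v⟩ hq' h
        have h1 := hS s (Finset.mem_product.1 hp').1
        have h2 := hS u (Finset.mem_product.1 hq').1
        have e1 : s = u := by
          have := congrArg (fun w => w % q ^ 2) h
          simpa [Nat.add_mul_mod_self_left, Nat.mod_eq_of_lt h1, Nat.mod_eq_of_lt h2] using this
        subst e1
        have e2 : pos (s, t) = pos (s, v) :=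
          Nat.eq_of_mul_eq_mul_left hM (Nat.add_left_cancel h)
        have e3 : t = v := Nat.add_left_cancel e2
        rw [e3]
      · intro a ha b hb n h
        obtain ⟨⟨s, t⟩, hp', rfl⟩ := Finset.mem_image.1 ha
        obtain ⟨⟨u, v⟩, hq', rfl⟩ := Finset.mem_image.1 hb
        obtain ⟨hs, ht⟩ := Finset.mem_product.1 hp'
        obtain ⟨hu, hv⟩ := Finset.mem_product.1 hq'
        dsimp only at h
        have hmod : s ≡ u + n ^ 2 [MOD q ^ 2] := by
          have h1 := congrArg (fun w => w % q ^ 2) h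
          simp only [Nat.add_right_comm u _ (n ^ 2), Nat.add_mul_mod_self_left] at h1
          exact h1
        by_cases hsu : s = u
        · subst hsu
          have h2 : q ^ 2 * pos (s, t) = q ^ 2 * pos (s, v) + n ^ 2 := by
            have : s + q ^ 2 * pos (s, t) = s + (q ^ 2 * pos (s, v) + n ^ 2) := by
              rw [← add_assoc]; exact h
            omega
          have hd : q ^ 2 ∣ n ^ 2 :=
            (Nat.dvd_add_right (dvd_mul_right _ _)).1 (h2 ▸ dvd_mul_right _ _)
          obtain ⟨m, rfl⟩ := (Nat.pow_dvd_pow_iff (by norm_num)).1 hd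
          have h3 : pos (s, t) = pos (s, v) + m ^ 2 :=
            Nat.eq_of_mul_eq_mul_left hM (by rw [h2]; ring)
          have h4 : t = v + m ^ 2 := by simp only [pos] at h3; omega
          rw [hfreeA t ht v hv m h4, mul_zero]
        · exfalso
          have h1 := hp s hs u hu n hsu hmod
          have h2 := hh s hs
          have h4 : H - 1 - rk s + 1 ≤ H - 1 - rk u := by omega
          have h5 := Nat.mul_le_mul_right L h4
          rw [Nat.succ_mul] at h5
          have h6 : t < L := hA t ht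
          have h7 : pos (s, t) + 1 ≤ pos (u, v) := by simp only [pos]; omega
          have h8 := Nat.mul_le_mul_left (q ^ 2) h7
          rw [Nat.mul_succ] at h8
          have h9 := hS s hs
          omega

/-- Turning slack of `k` bits into a better exponent. -/
theorem exponent_gain {B N k b a : ℕ} (h1 : 2 ^ k * B ^ 3 ≤ N ^ 4) (h2 : B ^ a ≤ (2 ^ k) ^ b) :
    B ^ (3 * b + a) ≤ N ^ (4 * b) := by
  calc B ^ (3 * b + a) = (B ^ 3) ^ b * B ^ a := by rw [pow_add, pow_mul]
    _ ≤ (B ^ 3) ^ b * (2 ^ k) ^ b := Nat.mul_le_mul_left _ h2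
    _ = (2 ^ k * B ^ 3) ^ b := by rw [mul_pow]; ring
    _ ≤ (N ^ 4) ^ b := Nat.pow_le_pow_left h1 b
    _ = N ^ (4 * b) := by rw [← pow_mul]

/-- From one ranked digit set to all lengths. -/
theorem all_N {q N H : ℕ} (hq : 1 < q) (hH : 0 < H) (hr : Ranked (q ^ 2) N H)
    {u v : ℕ} (hv : 0 < v) (hpow : (q ^ 2 * H) ^ u ≤ N ^ v) :
    ∃ c : ℝ, 0 < c ∧ ∀ n : ℕ, 1 ≤ n → ∃ A : Finset ℕ, A ⊆ Finset.Icc 1 n ∧
      (∀ a ∈ A, ∀ b ∈ A, ∀ m : ℕ, 1 ≤ m → a ≠ b + m ^ 2) ∧
      c * (n : ℝ) ^ ((u : ℝ) / (v : ℝ)) ≤ (A.card : ℝ) := by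
  classical
  set g : ℝ := (u : ℝ) / (v : ℝ) with hg
  set M := q ^ 2 * H with hMdef
  have hg0 : 0 ≤ g := by positivity
  have hM : 1 < M :=
    (Nat.one_lt_pow (by norm_num) hq).trans_le (Nat.le_mul_of_pos_right _ hH)
  have hMr : (0 : ℝ) < (M : ℝ) := by exact_mod_cast (show 0 < M by omega)
  refine ⟨1 / (M : ℝ) ^ g, by positivity, fun n hn => ?_⟩
  set k := Nat.log M n with hk
  have hk1 : M ^ k ≤ n := Nat.pow_log_le_self _ (by omega)
  have hk2 : n < M ^ (k + 1) := Nat.lt_pow_succ_log_self hM n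
  obtain ⟨A, hA, hcard, hAfree⟩ := digits (by omega) hr k
  refine ⟨A.image (· + 1), ?_, ?_, ?_⟩
  · intro x hx
    obtain ⟨a, ha, rfl⟩ := Finset.mem_image.1 hx
    have : a < M ^ k := hA a ha
    simp only [Finset.mem_Icc]
    omega
  · intro a ha b hb m hm he
    obtain ⟨a', ha', rfl⟩ := Finset.mem_image.1 ha
    obtain ⟨b', hb', rfl⟩ := Finset.mem_image.1 hb
    have := hAfree a' ha' b' hb' m (by omega)
    omega
  · rw [Finset.card_image_of_injective _ (add_left_injective 1)]
    have hN : (M : ℝ) ^ g ≤ (N : ℝ) := by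
      have h1 : ((M : ℝ) ^ g) ^ v ≤ (N : ℝ) ^ v := by
        rw [← Real.rpow_natCast _ v, ← Real.rpow_mul hMr.le, hg,
          div_mul_cancel₀ _ (by exact_mod_cast hv.ne'), Real.rpow_natCast]
        exact_mod_cast hpow
      exact le_of_pow_le_pow_left₀ hv.ne' (by positivity) h1
    have hle : (n : ℝ) ^ g ≤ (M : ℝ) ^ g * (N : ℝ) ^ k := by
      calc (n : ℝ) ^ g ≤ ((M ^ (k + 1) : ℕ) : ℝ) ^ g :=
            Real.rpow_le_rpow (by positivity) (by exact_mod_cast hk2.le) hg0
        _ = ((M : ℝ) ^ g) ^ (k + 1) := by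
            rw [Nat.cast_pow, ← Real.rpow_natCast, ← Real.rpow_natCast,
              ← Real.rpow_mul hMr.le, ← Real.rpow_mul hMr.le, mul_comm]
        _ ≤ (M : ℝ) ^ g * (N : ℝ) ^ k := by
            rw [pow_succ']
            exact mul_le_mul_of_nonneg_left (pow_le_pow_left₀ (by positivity) hN k) (by positivity)
    have hc : ((N : ℝ)) ^ k ≤ (A.card : ℝ) := by exact_mod_cast hcard
    rw [div_mul_eq_mul_div, one_mul, div_le_iff₀ (by positivity)]
    calc (n : ℝ) ^ g ≤ (M : ℝ) ^ g * (N : ℝ) ^ k := hle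
      _ ≤ (M : ℝ) ^ g * (A.card : ℝ) := mul_le_mul_of_nonneg_left hc (by positivity)
      _ = _ := mul_comm _ _

end Vale.Agent.P042
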